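import Vale.Agent.P343.Auto

namespace Vale.Agent.Results.P343.SakodaSipser

open Vale.Agent.P343

theorem result :
    (∀ n : ℕ, ∃ (A Q : Type) (_ : Fintype A) (_ : Fintype Q) (M : TwoNFA Q A),
      M.OneWay ∧ Fintype.card Q = 31 * n + 3 ∧
      ∀ (Q' : Type) [Fintype Q'] (D : TwoNFA Q' A), D.Deterministic →
        (∀ w, D.Accepts w ↔ M.Accepts w) → 2 ^ n ≤ 2 * Fintype.card Q') ∧
    (¬ ∃ p : Polynomial ℝ, ∀ (A Q : Type) [Fintype A] [Fintype Q] (M : TwoNFA Q A), M.OneWay →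
      ∃ (Q' : Type) (_ : Fintype Q') (D : TwoNFA Q' A), D.Deterministic ∧
        (∀ w, D.Accepts w ↔ M.Accepts w) ∧
        (Fintype.card Q' : ℝ) ≤ p.eval (Fintype.card Q : ℝ)) ∧
    (¬ ∃ p : Polynomial ℝ, ∀ (A Q : Type) [Fintype A] [Fintype Q] (M : TwoNFA Q A),
      ∃ (Q' : Type) (_ : Fintype Q') (D : TwoNFA Q' A), D.Deterministic ∧
        (∀ w, D.Accepts w ↔ M.Accepts w) ∧
        (Fintype.card Q' : ℝ) ≤ p.eval (Fintype.card Q : ℝ)) := by
  have h1 : ∀ n : ℕ, ∃ (A Q : Type) (_ : Fintype A) (_ : Fintype Q) (M : TwoNFA Q A),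
      M.OneWay ∧ Fintype.card Q = 31 * n + 3 ∧
      ∀ (Q' : Type) [Fintype Q'] (D : TwoNFA Q' A), D.Deterministic →
        (∀ w, D.Accepts w ↔ M.Accepts w) → 2 ^ n ≤ 2 * Fintype.card Q' := by
    intro n
    refine ⟨RM (Fin (31 * n + 2)), Option (Fin (31 * n + 2)), Fintype.ofFinite _, inferInstance,
      live 0, live_oneWay _, by simp, fun Q' _ D hD h => ?_⟩
    exact lower_bound n (by simp) 0 D hD h
  have h2 : ¬ ∃ p : Polynomial ℝ, ∀ (A Q : Type) [Fintype A] [Fintype Q] (M : TwoNFA Q A),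
      M.OneWay → ∃ (Q' : Type) (_ : Fintype Q') (D : TwoNFA Q' A), D.Deterministic ∧
        (∀ w, D.Accepts w ↔ M.Accepts w) ∧
        (Fintype.card Q' : ℝ) ≤ p.eval (Fintype.card Q : ℝ) := by
    rintro ⟨p, hp⟩
    have hl : 0 < Real.log 2 := Real.log_pos (by norm_num)
    have h3 := (Polynomial.tendsto_div_exp_atTop
      (p.comp (Polynomial.C (31 / Real.log 2) * Polynomial.X + Polynomial.C 3))).comp
      (tendsto_natCast_atTop_atTop.atTop_mul_const hl)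
    obtain ⟨n, hn⟩ := (h3.eventually (gt_mem_nhds (show (0 : ℝ) < 1 / 2 by norm_num))).exists
    obtain ⟨A, Q, _, _, M, k1, k2, k3⟩ := h1 n
    obtain ⟨Q', _, D, l1, l2, l3⟩ := hp A Q M k1
    have h4 : (2 : ℝ) ^ n ≤ 2 * Fintype.card Q' := by exact_mod_cast k3 Q' D l1 l2
    simp only [Function.comp, Polynomial.eval_comp, Polynomial.eval_add, Polynomial.eval_mul,
      Polynomial.eval_C, Polynomial.eval_X] at hn
    rw [Real.exp_nat_mul, Real.exp_log (by norm_num), div_lt_iff₀ (by positivity),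
      show 31 / Real.log 2 * (n * Real.log 2) + 3 = 31 * n + 3 by field_simp] at hn
    rw [k2] at l3
    push_cast at l3
    linarith
  exact ⟨h1, h2, fun ⟨p, hp⟩ => h2 ⟨p, fun A Q _ _ M _ => hp A Q M⟩⟩

end Vale.Agent.Results.P343.SakodaSipser
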